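import Vale.Agent.Lib.P083.Ops
import Vale.Agent.Lib.P083.Words
import Vale.Agent.Lib.P083.Separable

/-!
# P070, Part O: the gauge invariant representation of the Cuntz algebra on `ℓ²(ℕ × ℤ)`
-/

namespace P070.O

open Vale.Agent.P083
open scoped BigOperators InnerProductSpace Topology

/-- index set -/
abbrev X : Type := ℕ × ℤ

/-- the Hilbert space -/
abbrev K : Type := lp (fun _ : X => ℂ) 2

/-- `(n, k) ↦ (2 n + i, k + 1)` -/
def emb (i : Fin 2) : X ↪ X where
  toFun x := (2 * x.1 + (i : ℕ), x.2 + 1)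
  inj' := by
    rintro ⟨a, b⟩ ⟨c, d⟩ h
    simp only [Prod.mk.injEq] at h
    have h1 : a = c := by omega
    have h2 : b = d := by omega
    rw [h1, h2]

/-- the two isometries -/
noncomputable def V (i : Fin 2) : K →L[ℂ] K := OpsAux.T X (emb i)

/-- basis vectors -/
noncomputable abbrev e (x : X) : K := OpsAux.sg X x 1

theorem V_sg (i : Fin 2) (x : X) (a : ℂ) : V i (OpsAux.sg X x a) = OpsAux.sg X (emb i x) a :=
  OpsAux.T_sg X (emb i) x a

theorem V_iso (i : Fin 2) : star (V i) * V i = 1 := by
  rw [ContinuousLinearMap.star_eq_adjoint]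
  exact ((V i).norm_map_iff_adjoint_comp_self).1 (OpsAux.norm_T X (emb i))

theorem V_star (i : Fin 2) (n : X) (a : ℂ) :
    star (V i) (OpsAux.sg X (emb i n) a) = OpsAux.sg X n a := by
  have h1 : star (V i) (V i (OpsAux.sg X n a)) = OpsAux.sg X n a :=
    congrArg (fun L : K →L[ℂ] K => L (OpsAux.sg X n a)) (V_iso i)
  rw [V_sg] at h1
  exact h1

theorem V_star_zero (i : Fin 2) (j : X) (hj : j ∉ Set.range (emb i)) (a : ℂ) :
    star (V i) (OpsAux.sg X j a) = 0 := by
  refine ext_inner_left ℂ fun x => ?_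
  rw [ContinuousLinearMap.star_eq_adjoint, ContinuousLinearMap.adjoint_inner_right,
    inner_zero_right, ← inner_conj_symm, OpsAux.inner_sg_left]
  have h1 : (V i x) j = 0 := OpsAux.coord X (emb i) x j hj
  rw [h1, inner_zero_right, map_zero]

/-- first digit -/
def dig (x : X) : Fin 2 := ⟨x.1 % 2, Nat.mod_lt _ (by norm_num)⟩

/-- shift -/
def sh (x : X) : X := (x.1 / 2, x.2 - 1)

theorem emb_sh (x : X) : emb (dig x) (sh x) = x := by
  obtain ⟨n, k⟩ := x
  change (2 * (n / 2) + n % 2, k - 1 + 1) = (n, k)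
  rw [Nat.div_add_mod, sub_add_cancel]

theorem not_range {x : X} {i : Fin 2} (h : dig x ≠ i) : x ∉ Set.range (emb i) := by
  rintro ⟨y, rfl⟩
  apply h
  apply Fin.ext
  change (2 * y.1 + (i : ℕ)) % 2 = i
  have := i.isLt
  omega

theorem V_sum : V 0 * star (V 0) + V 1 * star (V 1) = 1 := by
  refine OpsAux.ext_sg fun j a => ?_
  have h1 : (V 0 * star (V 0) + V 1 * star (V 1)) (OpsAux.sg X j a) =
      V 0 (star (V 0) (OpsAux.sg X j a)) + V 1 (star (V 1) (OpsAux.sg X j a)) := rfl
  rw [h1]
  have h2 : (1 : K →L[ℂ] K) (OpsAux.sg X j a) = OpsAux.sg X j a := rfl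
  rw [h2]
  have hj := emb_sh j
  have hd : dig j = 0 ∨ dig j = 1 := by
    generalize dig j = i
    fin_cases i <;> simp
  rcases hd with hd | hd
  · have h4 : j ∉ Set.range (emb 1) := not_range (by rw [hd]; decide)
    rw [V_star_zero 1 j h4, map_zero, add_zero]
    rw [hd] at hj
    rw [← hj, V_star, V_sg]
  · have h4 : j ∉ Set.range (emb 0) := not_range (by rw [hd]; decide)
    rw [V_star_zero 0 j h4, map_zero, zero_add]
    rw [hd] at hj
    rw [← hj, V_star, V_sg]

theorem V_pair : IsCuntzPair V := ⟨V_iso, V_sum⟩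

/-- prefixes of a point -/
def pr (x : X) : ℕ → List (Fin 2)
  | 0 => []
  | n + 1 => dig x :: pr (sh x) n

theorem pr_length (x : X) (n : ℕ) : (pr x n).length = n := by
  induction n generalizing x with
  | zero => rfl
  | succ n ih => simp [pr, ih]

theorem pr_add (x : X) (m k : ℕ) : pr x (m + k) = pr x m ++ pr (sh^[m] x) k := by
  induction m generalizing x with
  | zero => simp [pr]
  | succ m ih =>
    rw [show m + 1 + k = (m + k) + 1 by omega]
    change dig x :: pr (sh x) (m + k) = dig x :: pr (sh x) m ++ pr (sh^[m + 1] x) k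
    rw [ih, Function.iterate_succ_apply]
    rfl

theorem wd_pr (x : X) (n : ℕ) : wd V (pr x n) (e (sh^[n] x)) = e x := by
  induction n generalizing x with
  | zero => rfl
  | succ n ih =>
    change V (dig x) (wd V (pr (sh x) n) (e (sh^[n + 1] x))) = e x
    rw [Function.iterate_succ_apply, ih, V_sg, emb_sh]

/-- adjoint words on basis vectors -/
theorem star_wd_e (ν : List (Fin 2)) (x : X) :
    star (wd V ν) (e x) = 0 ∨ ∃ y : X, star (wd V ν) (e x) = e y ∧ y.2 = x.2 - ν.length := by
  induction ν generalizing x with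
  | nil =>
    right
    refine ⟨x, ?_, by simp⟩
    change star (1 : K →L[ℂ] K) (e x) = e x
    rw [star_one]
    rfl
  | cons i ν ih =>
    have h1 : star (wd V (i :: ν)) (e x) = star (wd V ν) (star (V i) (e x)) := by
      change star (V i * wd V ν) (e x) = _
      rw [star_mul]
      rfl
    by_cases h : dig x = i
    · have h2 : star (V i) (e x) = e (sh x) := by
        conv_lhs => rw [← emb_sh x, h]
        exact V_star i (sh x) 1
      rw [h1, h2]
      rcases ih (sh x) with h3 | ⟨y, h3, h4⟩
      · left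
        exact h3
      · right
        refine ⟨y, h3, ?_⟩
        rw [h4]
        change x.2 - 1 - (ν.length : ℤ) = x.2 - ((ν.length + 1 : ℕ) : ℤ)
        push_cast
        ring
    · left
      rw [h1]
      have h2 : star (V i) (e x) = 0 := V_star_zero i x (not_range h) 1
      rw [h2, map_zero]

theorem wd_e (μ : List (Fin 2)) (y : X) : ∃ z : X, wd V μ (e y) = e z ∧ z.2 = y.2 + μ.length := by
  induction μ with
  | nil => exact ⟨y, rfl, by simp⟩
  | cons i μ ih =>
    obtain ⟨z, h1, h2⟩ := ih
    refine ⟨emb i z, ?_, ?_⟩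
    · change V i (wd V μ (e y)) = _
      rw [h1, V_sg]
    · change z.2 + 1 = y.2 + ((μ.length + 1 : ℕ) : ℤ)
      rw [h2]
      push_cast
      ring

/-- diagonal matrix coefficient -/
noncomputable def phi (x : X) (b : K →L[ℂ] K) : ℂ := ⟪e x, b (e x)⟫_ℂ

theorem e_norm (x : X) : ‖e x‖ = 1 := by
  have h : ‖OpsAux.sg X x 1‖ = ‖(1 : ℂ)‖ := (OpsAux.sg X x).norm_map 1
  rw [norm_one] at h
  exact h

theorem inner_e {x y : X} (h : x ≠ y) : ⟪e x, e y⟫_ℂ = 0 := by
  rw [OpsAux.inner_sg_left, OpsAux.sg_ne X h, inner_zero_right]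

theorem inner_e_self (x : X) : ⟪e x, e x⟫_ℂ = 1 := by
  rw [inner_self_eq_norm_sq_to_K, e_norm]
  norm_num

theorem phi_off (x : X) {μ ν : List (Fin 2)} (h : μ.length ≠ ν.length) :
    phi x (wd V μ * star (wd V ν)) = 0 := by
  change ⟪e x, wd V μ (star (wd V ν) (e x))⟫_ℂ = 0
  rcases star_wd_e ν x with h1 | ⟨y, h1, h2⟩
  · rw [h1, map_zero, inner_zero_right]
  · obtain ⟨z, h3, h4⟩ := wd_e μ y
    rw [h1, h3]
    refine inner_e ?_
    rintro rfl
    apply h
    have : (x.2 : ℤ) = x.2 - ν.length + μ.length := by rw [← h2]; exact h4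
    omega

theorem star_wd_pr (x : X) (ν : List (Fin 2)) :
    star (wd V ν) (e x) = if ν = pr x ν.length then e (sh^[ν.length] x) else 0 := by
  have h1 : e x = wd V (pr x ν.length) (e (sh^[ν.length] x)) := (wd_pr x _).symm
  conv_lhs => rw [h1]
  change (star (wd V ν) * wd V (pr x ν.length)) (e (sh^[ν.length] x)) = _
  split_ifs with h
  · rw [← h, wd_iso V_pair]
    rfl
  · rw [wd_orth V_pair (pr_length x _).symm h]
    rfl

theorem phi_diag (x : X) {μ ν : List (Fin 2)} (h : μ.length = ν.length) :
    phi x (wd V μ * star (wd V ν)) =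
      if μ = pr x μ.length ∧ ν = pr x ν.length then 1 else 0 := by
  have h0 : phi x (wd V μ * star (wd V ν)) =
      ⟪star (wd V μ) (e x), star (wd V ν) (e x)⟫_ℂ := by
    change ⟪e x, wd V μ (star (wd V ν) (e x))⟫_ℂ = _
    rw [ContinuousLinearMap.star_eq_adjoint, ContinuousLinearMap.star_eq_adjoint,
      ContinuousLinearMap.adjoint_inner_left]
  rw [h0, star_wd_pr, star_wd_pr]
  by_cases h1 : μ = pr x μ.length
  · by_cases h2 : ν = pr x ν.length
    · rw [if_pos h1, if_pos h2, if_pos ⟨h1, h2⟩, h, inner_e_self]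
    · rw [if_neg h2, inner_zero_right, if_neg (fun h3 => h2 h3.2)]
  · rw [if_neg h1, inner_zero_left, if_neg (fun h3 => h1 h3.1)]

/-- compressing word -/
def lam (x : X) (n : ℕ) : List (Fin 2) := pr x n ++ (List.replicate n 0 ++ [1])

theorem lam_length (x : X) (n : ℕ) : (lam x n).length = 2 * n + 1 := by
  simp [lam, pr_length]
  omega

/-- compression -/
noncomputable def Tn (x : X) (n : ℕ) (b : K →L[ℂ] K) : K →L[ℂ] K :=
  star (wd V (lam x n)) * b * wd V (lam x n)

theorem pre {β γ : List (Fin 2)} (h : star (wd V β) * wd V γ ≠ 0) : β <+: γ ∨ γ <+: β := by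
  induction β generalizing γ with
  | nil => exact Or.inl (List.nil_prefix)
  | cons i β ih =>
    cases γ with
    | nil => exact Or.inr (List.nil_prefix)
    | cons j γ =>
      rw [Words.step] at h
      by_cases hij : i = j
      · subst hij
        rw [V_iso, mul_one] at h
        rcases ih h with h1 | h1
        · exact Or.inl ((List.prefix_cons_inj i).2 h1)
        · exact Or.inr ((List.prefix_cons_inj i).2 h1)
      · rw [Words.orth V_pair hij, mul_zero, zero_mul] at h
        exact absurd rfl h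

theorem lam_last (x : X) (n : ℕ) : (lam x n)[2 * n]? = some 1 := by
  unfold lam
  rw [← List.append_assoc, List.getElem?_append_right (by simp [pr_length]; omega)]
  have : 2 * n - (pr x n ++ List.replicate n 0).length = 0 := by
    simp [pr_length]
    omega
  rw [this]
  rfl

theorem lam_mid (x : X) (n j : ℕ) (h1 : n ≤ j) (h2 : j < 2 * n) : (lam x n)[j]? = some 0 := by
  unfold lam
  rw [List.getElem?_append_right (by rw [pr_length]; exact h1), pr_length,
    List.getElem?_append_left (by simp; omega), List.getElem?_replicate]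
  rw [if_pos (by omega)]

/-- no periods -/
theorem no_period (x : X) (n : ℕ) {μ ν l l' : List (Fin 2)} (hμ : μ.length < ν.length)
    (hν : ν.length ≤ n) (h1 : lam x n = μ ++ l) (h2 : lam x n = ν ++ l') (h3 : l' <+: l) :
    False := by
  have hl := lam_length x n
  have e1 : l'[2 * n - ν.length]? = some 1 := by
    have h := lam_last x n
    rw [h2, List.getElem?_append_right (by omega)] at h
    exact h
  have e2 : l[2 * n - ν.length]? = some 0 := by
    have h := lam_mid x n (2 * n - ν.length + μ.length) (by omega) (by omega)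
    rw [h1, List.getElem?_append_right (by omega)] at h
    have h4 : 2 * n - ν.length + μ.length - μ.length = 2 * n - ν.length := by omega
    rw [h4] at h
    exact h
  obtain ⟨r, hr⟩ := h3
  rw [← hr, List.getElem?_append_left ?_, e1] at e2
  · simp at e2
  · rw [h2, List.length_append] at hl
    omega

theorem Tn_off (x : X) {n : ℕ} {μ ν : List (Fin 2)} (h : μ.length ≠ ν.length)
    (hμ : μ.length ≤ n) (hν : ν.length ≤ n) : Tn x n (wd V μ * star (wd V ν)) = 0 := by
  by_contra hne
  have hl := lam_length x n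
  have h0 : Tn x n (wd V μ * star (wd V ν)) =
      (star (wd V (lam x n)) * wd V μ) * (star (wd V ν) * wd V (lam x n)) := by
    unfold Tn
    simp only [mul_assoc]
  rw [h0] at hne
  have h1 : star (wd V (lam x n)) * wd V μ ≠ 0 := left_ne_zero_of_mul hne
  have h2 : star (wd V ν) * wd V (lam x n) ≠ 0 := right_ne_zero_of_mul hne
  have h3 : μ <+: lam x n := by
    rcases pre h1 with h | h
    · have := h.length_le
      omega
    · exact h
  have h4 : ν <+: lam x n := by
    rcases pre h2 with h | h
    · exact h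
    · have := h.length_le
      omega
  obtain ⟨l, hl1⟩ := h3
  obtain ⟨l', hl2⟩ := h4
  have h5 : star (wd V (lam x n)) * wd V μ = star (wd V l) := by
    rw [← hl1, wd_append, star_mul, mul_assoc, wd_iso V_pair, mul_one]
  have h6 : star (wd V ν) * wd V (lam x n) = wd V l' := by
    rw [← hl2, wd_append, ← mul_assoc, wd_iso V_pair, one_mul]
  rw [h5, h6] at hne
  have hlen1 : μ.length + l.length = 2 * n + 1 := by
    rw [← hl, ← hl1, List.length_append]
  have hlen2 : ν.length + l'.length = 2 * n + 1 := by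
    rw [← hl, ← hl2, List.length_append]
  rcases pre hne with h7 | h7
  · have := h7.length_le
    exact no_period x n (μ := ν) (ν := μ) (by omega) hμ hl2.symm hl1.symm h7
  · have := h7.length_le
    exact no_period x n (μ := μ) (ν := ν) (by omega) hν hl1.symm hl2.symm h7

theorem lam_split (x : X) {m n : ℕ} (h : m ≤ n) : ∃ r, lam x n = pr x m ++ r := by
  obtain ⟨k, rfl⟩ := Nat.exists_eq_add_of_le h
  refine ⟨pr (sh^[m] x) k ++ (List.replicate (m + k) 0 ++ [1]), ?_⟩
  unfold lam
  rw [pr_add, List.append_assoc]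

theorem Tn_diag (x : X) {n : ℕ} {μ ν : List (Fin 2)} (h : μ.length = ν.length)
    (hμ : μ.length ≤ n) : Tn x n (wd V μ * star (wd V ν)) =
      (if μ = pr x μ.length ∧ ν = pr x ν.length then (1 : ℂ) else 0) • 1 := by
  obtain ⟨r, hr⟩ := lam_split x hμ
  have h0 : Tn x n (wd V μ * star (wd V ν)) =
      star (wd V r) * (star (wd V (pr x μ.length)) * wd V μ) *
        ((star (wd V ν) * wd V (pr x μ.length)) * wd V r) := by
    unfold Tn
    rw [hr, wd_append, star_mul]
    simp only [mul_assoc]
  rw [h0]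
  by_cases h1 : μ = pr x μ.length
  · by_cases h2 : ν = pr x ν.length
    · rw [if_pos ⟨h1, h2⟩, one_smul, ← h1, wd_iso V_pair]
      have h3 : μ = ν := by
        rw [h1, h2, h]
      rw [← h3, wd_iso V_pair, one_mul, mul_one, wd_iso V_pair]
    · rw [if_neg (fun h3 => h2 h3.2), zero_smul, h, wd_orth V_pair (pr_length x _).symm h2,
        zero_mul, mul_zero]
  · rw [if_neg (fun h3 => h1 h3.1), zero_smul]
    rw [wd_orth V_pair (pr_length x _) (fun h3 => h1 h3.symm), mul_zero, zero_mul]

/-- the compression of a polynomial is scalar -/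
theorem Tn_span (x : X) {b : K →L[ℂ] K} (hb : b ∈ Submodule.span ℂ (Words.sp V)) :
    ∃ N, ∀ n, N ≤ n → Tn x n b = phi x b • 1 := by
  induction hb using Submodule.span_induction with
  | mem b h =>
    obtain ⟨⟨μ, ν⟩, rfl⟩ := h
    refine ⟨max μ.length ν.length, fun n hn => ?_⟩
    have h1 : μ.length ≤ n := le_trans (le_max_left _ _) hn
    have h2 : ν.length ≤ n := le_trans (le_max_right _ _) hn
    by_cases h : μ.length = ν.length
    · change Tn x n (wd V μ * star (wd V ν)) = phi x (wd V μ * star (wd V ν)) • 1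
      rw [Tn_diag x h h1, phi_diag x h]
    · change Tn x n (wd V μ * star (wd V ν)) = phi x (wd V μ * star (wd V ν)) • 1
      rw [Tn_off x h h1 h2, phi_off x h, zero_smul]
  | zero =>
    refine ⟨0, fun n _ => ?_⟩
    unfold Tn phi
    rw [mul_zero, zero_mul, zero_apply, inner_zero_right, zero_smul]
  | add a b _ _ ha hb =>
    obtain ⟨N, hN⟩ := ha
    obtain ⟨M, hM⟩ := hb
    refine ⟨max N M, fun n hn => ?_⟩
    have h1 := hN n (le_trans (le_max_left _ _) hn)
    have h2 := hM n (le_trans (le_max_right _ _) hn)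
    have h3 : Tn x n (a + b) = Tn x n a + Tn x n b := by
      unfold Tn
      rw [mul_add, add_mul]
    have h4 : phi x (a + b) = phi x a + phi x b := by
      unfold phi
      rw [add_apply, inner_add_right]
    rw [h3, h4, h1, h2, add_smul]
  | smul c a _ ha =>
    obtain ⟨N, hN⟩ := ha
    refine ⟨N, fun n hn => ?_⟩
    have h3 : Tn x n (c • a) = c • Tn x n a := by
      unfold Tn
      rw [mul_smul_comm, smul_mul_assoc]
    have h4 : phi x (c • a) = c * phi x a := by
      unfold phi
      rw [smul_apply, inner_smul_right]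
    rw [h3, h4, hN n hn, smul_smul]

end P070.O
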