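import Vale.Agent.Lib.P070.O.Cuntz
import Vale.Agent.Lib.P070.Interface2

/-!
# P070, Part O: a separable unital purely infinite simple algebra
-/

namespace P070.O

open Vale.Agent.P083
open scoped BigOperators InnerProductSpace Topology

/-- the C*-algebra generated by the two isometries -/
noncomputable def A : StarSubalgebra ℂ (K →L[ℂ] K) :=
  (StarAlgebra.adjoin ℂ (Set.range V)).topologicalClosure

theorem A_closed : IsClosed (A : Set (K →L[ℂ] K)) :=
  StarSubalgebra.isClosed_topologicalClosure _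

theorem V_mem (i : Fin 2) : V i ∈ A :=
  StarSubalgebra.le_topologicalClosure _ (StarAlgebra.subset_adjoin ℂ _ ⟨i, rfl⟩)

@[reducible] noncomputable def instA : CStarAlgebra A :=
  StarSubalgebra.cstarAlgebra A (h_closed := A_closed)

attribute [local instance] instA

theorem K_one_ne : (1 : K →L[ℂ] K) ≠ 0 := by
  intro h
  have h1 := congrArg (fun L : K →L[ℂ] K => L (e (0, 0))) h
  have h2 := e_norm (0, 0)
  have h3 : e (0, 0) = 0 := h1
  rw [h3, norm_zero] at h2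
  exact zero_ne_one h2

theorem A_nontrivial : Nontrivial A := by
  refine ⟨⟨1, 0, ?_⟩⟩
  intro h
  exact K_one_ne (congrArg Subtype.val h)

theorem A_sep : TopologicalSpace.SeparableSpace A :=
  separable_adjoin (Set.range V) (Set.countable_range V)

theorem wd_mem (μ : List (Fin 2)) : wd V μ ∈ A := by
  induction μ with
  | nil => exact A.one_mem
  | cons i μ ih => exact A.mul_mem (V_mem i) ih

theorem norm_wd (μ : List (Fin 2)) : ‖wd V μ‖ = 1 := by
  have h := CStarRing.norm_star_mul_self (x := wd V μ)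
  rw [wd_iso V_pair] at h
  have h1 : ‖(1 : K →L[ℂ] K)‖ = 1 := by
    have : Nontrivial (K →L[ℂ] K) := ⟨⟨1, 0, K_one_ne⟩⟩
    exact CStarRing.norm_one
  rw [h1] at h
  nlinarith [norm_nonneg (wd V μ)]

theorem norm_star_wd (μ : List (Fin 2)) : ‖star (wd V μ)‖ = 1 := by
  have h : ‖star (wd V μ)‖ = ‖wd V μ‖ := _root_.norm_star (wd V μ)
  rw [h, norm_wd]

theorem norm_Tn (x : X) (n : ℕ) (b : K →L[ℂ] K) : ‖Tn x n b‖ ≤ ‖b‖ := by
  unfold Tn
  refine (norm_mul_le _ _).trans ?_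
  rw [norm_wd, mul_one]
  refine (norm_mul_le _ _).trans ?_
  rw [norm_star_wd, one_mul]

theorem norm_phi (x : X) (b : K →L[ℂ] K) : ‖phi x b‖ ≤ ‖b‖ := by
  unfold phi
  refine (norm_inner_le_norm _ _).trans ?_
  rw [e_norm, one_mul]
  refine (b.le_opNorm _).trans ?_
  rw [e_norm, mul_one]

theorem exists_phi {y : K →L[ℂ] K} (hy : y ≠ 0) :
    ∃ (x : X) (δ : ℝ), 0 < δ ∧ phi x (star y * y) = (δ : ℂ) := by
  have h1 : ∃ x : X, y (e x) ≠ 0 := by
    by_contra hcon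
    push Not at hcon
    apply hy
    refine OpsAux.ext_sg fun i a => ?_
    have h2 : OpsAux.sg X i a = a • e i := by
      have h3 := (OpsAux.sg X i).map_smul a 1
      rw [smul_eq_mul, mul_one] at h3
      exact h3
    rw [h2, map_smul, hcon i, smul_zero]
    rfl
  obtain ⟨x, hx⟩ := h1
  refine ⟨x, ‖y (e x)‖ ^ 2, by positivity, ?_⟩
  change ⟪e x, star y (y (e x))⟫_ℂ = _
  rw [ContinuousLinearMap.star_eq_adjoint, ContinuousLinearMap.adjoint_inner_right,
    inner_self_eq_norm_sq_to_K]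
  norm_cast

/-- compressions of elements of the algebra -/
theorem exists_comp {a : K →L[ℂ] K} (ha : a ∈ A) (x : X) {δ : ℝ} (hδ : 0 < δ)
    (hphi : phi x a = (δ : ℂ)) :
    ∃ μ : List (Fin 2), ‖star (wd V μ) * a * wd V μ - (δ : ℂ) • 1‖ < δ := by
  have h1 : a ∈ closure ((StarAlgebra.adjoin ℂ (Set.range V) : StarSubalgebra ℂ (K →L[ℂ] K)) :
      Set (K →L[ℂ] K)) := ha
  obtain ⟨b, hb, hab⟩ := Metric.mem_closure_iff.1 h1 (δ / 2) (by positivity)
  rw [dist_eq_norm] at hab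
  obtain ⟨N, hN⟩ := Tn_span x (adjoin_le_span V_pair hb)
  have h2 := hN N le_rfl
  refine ⟨lam x N, ?_⟩
  change ‖Tn x N a - (δ : ℂ) • 1‖ < δ
  have h3 : Tn x N a - (δ : ℂ) • (1 : K →L[ℂ] K) = Tn x N (a - b) - (phi x (a - b)) • 1 := by
    have h4 : Tn x N (a - b) = Tn x N a - Tn x N b := by
      unfold Tn
      rw [mul_sub, sub_mul]
    have h5 : phi x (a - b) = phi x a - phi x b := by
      unfold phi
      rw [sub_apply, inner_sub_right]
    rw [h4, h5, h2, hphi, sub_smul]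
    abel
  rw [h3]
  have h1' : ‖(1 : K →L[ℂ] K)‖ = 1 := by
    have : Nontrivial (K →L[ℂ] K) := ⟨⟨1, 0, K_one_ne⟩⟩
    exact CStarRing.norm_one
  calc ‖Tn x N (a - b) - (phi x (a - b)) • 1‖
      ≤ ‖Tn x N (a - b)‖ + ‖(phi x (a - b)) • (1 : K →L[ℂ] K)‖ := norm_sub_le _ _
    _ ≤ ‖a - b‖ + ‖a - b‖ := by
        refine add_le_add (norm_Tn _ _ _) ?_
        rw [norm_smul, h1', mul_one]
        exact norm_phi _ _
    _ < δ := by linarith

open scoped ComplexOrder CStarAlgebra in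
/-- normalisation -/
theorem exists_norm {B : Type} [CStarAlgebra B] (z : B) {δ : ℝ} (hδ : 0 < δ)
    (h : ‖star z * z - (δ : ℂ) • 1‖ < δ) : ∃ r : B, star (z * r) * (z * r) = 1 := by
  let _ := CStarAlgebra.spectralOrder B
  have := CStarAlgebra.spectralOrderedRing B
  set c : B := star z * z with hc
  have hc0 : 0 ≤ c := star_mul_self_nonneg z
  have hu : IsUnit c := by
    have h1 : ‖1 - ((δ⁻¹ : ℝ) : ℂ) • c‖ < 1 := by
      have h2 : 1 - ((δ⁻¹ : ℝ) : ℂ) • c = -(((δ⁻¹ : ℝ) : ℂ) • (c - (δ : ℂ) • 1)) := by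
        rw [smul_sub, smul_smul, ← Complex.ofReal_mul, inv_mul_cancel₀ hδ.ne',
          Complex.ofReal_one, one_smul]
        abel
      rw [h2, norm_neg, norm_smul, Complex.norm_real, norm_inv, Real.norm_of_nonneg hδ.le]
      rw [inv_mul_lt_iff₀ hδ, mul_one]
      exact h
    have h3 : IsUnit (((δ⁻¹ : ℝ) : ℂ) • c) := by
      have h4 := (Units.oneSub (1 - ((δ⁻¹ : ℝ) : ℂ) • c) h1).isUnit
      rw [Units.val_oneSub, sub_sub_cancel] at h4
      exact h4
    have h5 : (((δ⁻¹ : ℝ) : ℂ)) ≠ 0 := by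
      rw [Complex.ofReal_ne_zero]
      exact inv_ne_zero hδ.ne'
    have h6 : c = (Units.mk0 _ h5)⁻¹ • (((δ⁻¹ : ℝ) : ℂ) • c) := by
      rw [Units.smul_def, Units.val_inv_eq_inv_val, Units.val_mk0, smul_smul,
        inv_mul_cancel₀ h5, one_smul]
    rw [h6]
    exact h3.smul _
  refine ⟨c ^ (-(1 / 2) : ℝ), ?_⟩
  have hr : star (c ^ (-(1 / 2) : ℝ)) = c ^ (-(1 / 2) : ℝ) :=
    (IsSelfAdjoint.of_nonneg CFC.rpow_nonneg).star_eq
  rw [star_mul, hr]
  have h7 : c ^ (-(1 / 2) : ℝ) * star z * (z * c ^ (-(1 / 2) : ℝ)) =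
      c ^ (-(1 / 2) : ℝ) * c ^ (1 : ℝ) * c ^ (-(1 / 2) : ℝ) := by
    rw [CFC.rpow_one c hc0, hc]
    simp only [mul_assoc]
  rw [h7, ← CFC.rpow_add hu, ← CFC.rpow_add hu]
  have h8 : (-(1 / 2) + 1 + -(1 / 2) : ℝ) = 0 := by norm_num
  rw [h8, CFC.rpow_zero c hc0]

theorem A_pi : PIT A := by
  intro y hy
  have hy' : (y : K →L[ℂ] K) ≠ 0 := fun h => hy (Subtype.ext h)
  obtain ⟨x, δ, hδ, hphi⟩ := exists_phi hy'
  obtain ⟨μ, hμ⟩ := exists_comp (mul_mem (star_mem y.2) y.2) x hδ hphi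
  let w : A := ⟨wd V μ, wd_mem μ⟩
  obtain ⟨r, hr⟩ := exists_norm (B := A) (y * w) hδ (by
    have h1 : ‖star (y * w) * (y * w) - (δ : ℂ) • (1 : A)‖ =
        ‖star (wd V μ) * (star (y : K →L[ℂ] K) * y) * wd V μ - (δ : ℂ) • 1‖ := by
      change ‖star ((y : K →L[ℂ] K) * wd V μ) * ((y : K →L[ℂ] K) * wd V μ) - (δ : ℂ) • 1‖ = _
      rw [star_mul]
      simp only [mul_assoc]
    rw [h1]
    exact hμ)
  exact ⟨w * r, by rw [← mul_assoc]; exact hr⟩

end P070.O

namespace P070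

theorem partO2 : PartO2 := by
  refine ⟨O.A, O.instA, O.A_nontrivial, O.A_sep, O.A_pi, ⟨O.V 0, O.V_mem 0⟩, ?_, ?_⟩
  · exact Subtype.ext (O.V_iso 0)
  · intro h
    have h1 : O.V 0 * star (O.V 0) = 1 := congrArg Subtype.val h
    have h2 := O.V_sum
    rw [h1, add_eq_left] at h2
    have h3 : star (O.V 1) * (O.V 1 * star (O.V 1)) * O.V 1 = 1 := by
      rw [← mul_assoc, O.V_iso, one_mul, O.V_iso]
    rw [h2, mul_zero, zero_mul] at h3
    exact O.K_one_ne h3.symm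

end P070
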